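import Vale.Agent.P216.H391.CPN
import Vale.Agent.P216.L250.ToHol

/-!
# The transport kernel of complex projective space

`CP N` is the set of rank one projections `v vᴴ`. With a unit vector `uv P` for every `P`, the kernel
`kap P Q` is the phase of `⟨uv P, uv Q⟩`; the area bound comes from the formula
`2 i Im tr (P Q R) = tr ([P - Q, Q] (R - Q))`.
-/

namespace Vale.Agent.P216.Ker923

open Vale.Agent.P216.H391 Vale.Agent.P216.L250
open scoped ComplexConjugate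

/-! ### Phases -/

/-- The phase of a complex number (`1` at `0`). -/
noncomputable def phs (z : ℂ) : ℂ := if z = 0 then 1 else z / (‖z‖ : ℂ)

theorem phs_of_ne {z : ℂ} (hz : z ≠ 0) : phs z = z / (‖z‖ : ℂ) := if_neg hz

@[simp] theorem phs_zero : phs 0 = 1 := if_pos rfl

@[simp] theorem norm_phs (z : ℂ) : ‖phs z‖ = 1 := by
  by_cases hz : z = 0
  · simp [hz]
  · rw [phs_of_ne hz, norm_div, Complex.norm_real, norm_norm, div_self (norm_ne_zero_iff.2 hz)]

theorem phs_conj (z : ℂ) : phs (conj z) = conj (phs z) := by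
  by_cases hz : z = 0
  · simp [hz]
  · have hz' : conj z ≠ 0 := (map_ne_zero _).2 hz
    rw [phs_of_ne hz, phs_of_ne hz', map_div₀, Complex.conj_ofReal, RCLike.norm_conj]

theorem phs_mul {z w : ℂ} (hz : z ≠ 0) (hw : w ≠ 0) : phs (z * w) = phs z * phs w := by
  rw [phs_of_ne hz, phs_of_ne hw, phs_of_ne (mul_ne_zero hz hw), norm_mul, Complex.ofReal_mul]
  field_simp

theorem phs_ofReal {x : ℝ} (hx : 0 < x) : phs (x : ℂ) = 1 := by
  have h : (x : ℂ) ≠ 0 := by exact_mod_cast hx.ne'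
  rw [phs_of_ne h, Complex.norm_real, Real.norm_of_nonneg hx.le, div_self h]

@[simp] theorem phs_one : phs 1 = 1 := by
  have := phs_ofReal one_pos
  simpa using this

/-- `z = ‖z‖ * phs z`. -/
theorem norm_mul_phs (z : ℂ) : (‖z‖ : ℂ) * phs z = z := by
  by_cases hz : z = 0
  · simp [hz]
  · rw [phs_of_ne hz, mul_div_cancel₀]
    exact_mod_cast norm_ne_zero_iff.2 hz

theorem norm_phs_sub_one {z : ℂ} (hz : 1 / 2 ≤ z.re) : ‖phs z - 1‖ ≤ 4 * |z.im| := by
  have h0 : z ≠ 0 := by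
    rintro rfl
    norm_num at hz
  have h1 : z.re ≤ ‖z‖ := Complex.re_le_norm z
  have h2 : ‖z‖ ≤ |z.re| + |z.im| := Complex.norm_le_abs_re_add_abs_im z
  rw [abs_of_nonneg (by linarith : (0 : ℝ) ≤ z.re)] at h2
  have hn : (0 : ℝ) < ‖z‖ := by linarith
  have hn' : ((‖z‖ : ℝ) : ℂ) ≠ 0 := by exact_mod_cast hn.ne'
  have h3 : phs z - 1 = (z - (‖z‖ : ℂ)) / (‖z‖ : ℂ) := by
    rw [phs_of_ne h0, sub_div, div_self hn']
  have h4 : ‖z - (‖z‖ : ℂ)‖ ≤ 2 * |z.im| := by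
    refine (Complex.norm_le_abs_re_add_abs_im _).trans ?_
    rw [Complex.sub_re, Complex.sub_im, Complex.ofReal_re, Complex.ofReal_im, sub_zero,
      abs_sub_comm, abs_of_nonneg (by linarith : (0 : ℝ) ≤ ‖z‖ - z.re)]
    linarith
  rw [h3, norm_div, Complex.norm_real, norm_norm, div_le_iff₀ hn]
  have h5 : 0 ≤ |z.im| := abs_nonneg _
  nlinarith

/-! ### The hermitian product and the trace of a triple product -/

variable {N : ℕ}

/-- The hermitian product. -/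
noncomputable def ip (v w : Fin N → ℂ) : ℂ := ∑ i, conj (v i) * w i

theorem ip_conj (v w : Fin N → ℂ) : conj (ip v w) = ip w v := by
  simp only [ip, map_sum, map_mul, Complex.conj_conj]
  exact Finset.sum_congr rfl fun _ _ => mul_comm _ _

theorem ip_self (v : Fin N → ℂ) : ip v v = ((ns v : ℝ) : ℂ) := by
  simp only [ip, ns, Complex.ofReal_sum]
  refine Finset.sum_congr rfl fun i _ => ?_
  rw [mul_comm, Complex.mul_conj, Complex.normSq_eq_norm_sq]

/-- The trace of `P Q R`. -/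
noncomputable def t3 (P Q R : Mt N) : ℂ := ∑ i, ∑ j, ∑ l, P i j * Q j l * R l i

theorem t3_prj (a b c : Fin N → ℂ) :
    t3 (prj a) (prj b) (prj c) = ip a b * ip b c * ip c a := by
  simp only [t3, prj, ip]
  rw [Finset.sum_mul_sum, Finset.sum_mul_sum, Finset.sum_comm]
  simp only [Finset.sum_mul]
  refine Finset.sum_congr rfl fun j _ => ?_
  rw [Finset.sum_comm]
  refine Finset.sum_comm.trans ?_
  refine Finset.sum_congr rfl fun i _ => ?_
  refine Finset.sum_congr rfl fun l _ => ?_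
  ring

theorem t3_cyc (P Q R : Mt N) : t3 P Q R = t3 Q R P := by
  simp only [t3]
  rw [Finset.sum_comm]
  refine Finset.sum_congr rfl fun j _ => ?_
  rw [Finset.sum_comm]
  refine Finset.sum_congr rfl fun l _ => ?_
  refine Finset.sum_congr rfl fun i _ => ?_
  ring

theorem t3_sub_left (P P' Q R : Mt N) : t3 (P - P') Q R = t3 P Q R - t3 P' Q R := by
  simp only [t3, Pi.sub_apply, sub_mul, Finset.sum_sub_distrib]

theorem t3_sub_mid (P Q Q' R : Mt N) : t3 P (Q - Q') R = t3 P Q R - t3 P Q' R := by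
  simp only [t3, Pi.sub_apply, sub_mul, mul_sub, Finset.sum_sub_distrib]

theorem t3_sub_right (P Q R R' : Mt N) : t3 P Q (R - R') = t3 P Q R - t3 P Q R' := by
  simp only [t3, Pi.sub_apply, mul_sub, Finset.sum_sub_distrib]

theorem norm_t3_le (P Q R : Mt N) : ‖t3 P Q R‖ ≤ (N : ℝ) ^ 3 * (‖P‖ * ‖Q‖ * ‖R‖) := by
  have h1 : ∀ i j l : Fin N, ‖P i j * Q j l * R l i‖ ≤ ‖P‖ * ‖Q‖ * ‖R‖ := by
    intro i j l
    rw [norm_mul, norm_mul]
    have hP : ‖P i j‖ ≤ ‖P‖ := (norm_le_pi_norm (P i) j).trans (norm_le_pi_norm P i)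
    have hQ : ‖Q j l‖ ≤ ‖Q‖ := (norm_le_pi_norm (Q j) l).trans (norm_le_pi_norm Q j)
    have hR : ‖R l i‖ ≤ ‖R‖ := (norm_le_pi_norm (R l) i).trans (norm_le_pi_norm R l)
    gcongr
  have h2 : ‖t3 P Q R‖ ≤ ∑ _i : Fin N, ∑ _j : Fin N, ∑ _l : Fin N, ‖P‖ * ‖Q‖ * ‖R‖ := by
    refine norm_sum_le_of_le _ fun i _ => norm_sum_le_of_le _ fun j _ =>
      norm_sum_le_of_le _ fun l _ => h1 i j l
  refine h2.trans (le_of_eq ?_)
  simp only [Finset.sum_const, Finset.card_univ, Fintype.card_fin, nsmul_eq_mul]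
  ring

/-- hermitian matrices -/
def Herm (P : Mt N) : Prop := ∀ i j, conj (P i j) = P j i

theorem herm_prj (v : Fin N → ℂ) : Herm (prj v) := fun i j => by
  simp only [prj, map_mul, Complex.conj_conj]
  exact mul_comm _ _

theorem t3_conj {P Q R : Mt N} (hP : Herm P) (hQ : Herm Q) (hR : Herm R) :
    conj (t3 P Q R) = t3 R Q P := by
  simp only [t3, map_sum, map_mul, hP _ _, hQ _ _, hR _ _]
  refine Finset.sum_congr rfl fun i _ => ?_
  rw [Finset.sum_comm]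
  refine Finset.sum_congr rfl fun l _ => ?_
  refine Finset.sum_congr rfl fun j _ => ?_
  ring

/-- The basic identity: the imaginary part of the triple product is quadratically small. -/
theorem t3_sub_conj {P Q R : Mt N} (hP : Herm P) (hQ : Herm Q) (hR : Herm R) :
    t3 P Q R - conj (t3 P Q R) = t3 (P - Q) Q (R - Q) - t3 Q (P - Q) (R - Q) := by
  rw [t3_conj hP hQ hR]
  simp only [t3_sub_left, t3_sub_right, t3_sub_mid]
  have e1 := t3_cyc R Q P
  have e2 := t3_cyc Q P Q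
  linear_combination -e2 - e1

theorem abs_im_t3_le {P Q R : Mt N} (hP : Herm P) (hQ : Herm Q) (hR : Herm R) (h1 : ‖Q‖ ≤ 1) :
    |(t3 P Q R).im| ≤ (N : ℝ) ^ 3 * (‖P - Q‖ * ‖R - Q‖) := by
  have h2 : t3 P Q R - conj (t3 P Q R) = ((2 * (t3 P Q R).im : ℝ) : ℂ) * Complex.I := by
    rw [Complex.sub_conj]
  have h3 : ‖t3 P Q R - conj (t3 P Q R)‖ = 2 * |(t3 P Q R).im| := by
    rw [h2, norm_mul, Complex.norm_I, mul_one, Complex.norm_real, Real.norm_eq_abs, abs_mul]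
    norm_num
  have h4 : ‖t3 P Q R - conj (t3 P Q R)‖ ≤ 2 * ((N : ℝ) ^ 3 * (‖P - Q‖ * ‖R - Q‖)) := by
    rw [t3_sub_conj hP hQ hR]
    refine (norm_sub_le _ _).trans ?_
    have h5 := norm_t3_le (P - Q) Q (R - Q)
    have h6 := norm_t3_le Q (P - Q) (R - Q)
    have h7 : ‖P - Q‖ * ‖Q‖ * ‖R - Q‖ ≤ ‖P - Q‖ * ‖R - Q‖ := by
      have : ‖P - Q‖ * ‖Q‖ ≤ ‖P - Q‖ * 1 := by gcongr
      have h8 := mul_le_mul_of_nonneg_right this (norm_nonneg (R - Q))
      rwa [mul_one] at h8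
    have h7' : ‖Q‖ * ‖P - Q‖ * ‖R - Q‖ ≤ ‖P - Q‖ * ‖R - Q‖ := by
      rw [mul_comm ‖Q‖]; exact h7
    have hN : (0 : ℝ) ≤ (N : ℝ) ^ 3 := by positivity
    have h9 := mul_le_mul_of_nonneg_left h7 hN
    have h9' := mul_le_mul_of_nonneg_left h7' hN
    linarith
  linarith

theorem norm_prj_le {v : Fin N → ℂ} (hv : ns v = 1) : ‖prj v‖ ≤ 1 := by
  rw [pi_norm_le_iff_of_nonneg zero_le_one]
  intro i
  rw [pi_norm_le_iff_of_nonneg zero_le_one]
  intro j
  rw [norm_prj]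
  have h : ∀ i, ‖v i‖ ≤ 1 := by
    intro i
    have h2 : ‖v i‖ ^ 2 ≤ ns v :=
      Finset.single_le_sum (f := fun i => ‖v i‖ ^ 2) (fun _ _ => by positivity) (Finset.mem_univ i)
    rw [hv] at h2
    nlinarith [norm_nonneg (v i)]
  exact mul_le_one₀ (h i) (norm_nonneg _) (h j)

theorem norm_t3_sub_one_le {P R : Mt N} {v : Fin N → ℂ} (hv : ns v = 1) :
    ‖t3 P (prj v) R - 1‖ ≤ (N : ℝ) ^ 3 * (‖P - prj v‖ + ‖R - prj v‖ +
      ‖P - prj v‖ * ‖R - prj v‖) := by
  set Q := prj v with hQ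
  have h1 : t3 Q Q Q = 1 := by
    rw [hQ, t3_prj, ip_self, hv]; simp
  have h2 : t3 P Q R - 1 = t3 (P - Q) Q Q + t3 Q Q (R - Q) + t3 (P - Q) Q (R - Q) := by
    rw [t3_sub_left, t3_sub_right, t3_sub_right, t3_sub_left, t3_sub_left, h1]
    ring
  have h3 : ‖Q‖ ≤ 1 := norm_prj_le hv
  have h4 := norm_t3_le (P - Q) Q Q
  have h5 := norm_t3_le Q Q (R - Q)
  have h6 := norm_t3_le (P - Q) Q (R - Q)
  have hN : (0 : ℝ) ≤ (N : ℝ) ^ 3 := by positivity
  have hX := norm_nonneg (P - Q)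
  have hY := norm_nonneg (R - Q)
  have hQ0 := norm_nonneg Q
  have h7 : ‖P - Q‖ * ‖Q‖ * ‖Q‖ ≤ ‖P - Q‖ := by
    calc ‖P - Q‖ * ‖Q‖ * ‖Q‖ ≤ ‖P - Q‖ * 1 * 1 := by gcongr
      _ = ‖P - Q‖ := by ring
  have h8 : ‖Q‖ * ‖Q‖ * ‖R - Q‖ ≤ ‖R - Q‖ := by
    calc ‖Q‖ * ‖Q‖ * ‖R - Q‖ ≤ 1 * 1 * ‖R - Q‖ := by gcongr
      _ = ‖R - Q‖ := by ring
  have h9 : ‖P - Q‖ * ‖Q‖ * ‖R - Q‖ ≤ ‖P - Q‖ * ‖R - Q‖ := by
    calc ‖P - Q‖ * ‖Q‖ * ‖R - Q‖ ≤ ‖P - Q‖ * 1 * ‖R - Q‖ := by gcongr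
      _ = ‖P - Q‖ * ‖R - Q‖ := by ring
  rw [h2]
  refine (norm_add₃_le).trans ?_
  have h7' := mul_le_mul_of_nonneg_left h7 hN
  have h8' := mul_le_mul_of_nonneg_left h8 hN
  have h9' := mul_le_mul_of_nonneg_left h9 hN
  linarith

/-! ### The kernel -/

/-- A unit vector in the line of `P`. -/
noncomputable def uv (P : CP N) : Fin N → ℂ := P.2.choose

theorem ns_uv (P : CP N) : ns (uv P) = 1 := P.2.choose_spec.1

theorem prj_uv (P : CP N) : prj (uv P) = P.1 := P.2.choose_spec.2.symm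

/-- The kernel: the phase of the hermitian product of the unit vectors. -/
noncomputable def kap (P Q : CP N) : ℂ := phs (ip (uv P) (uv Q))

/-- The size of the triangles on which the area bound holds. -/
noncomputable def rr (N : ℕ) : ℝ := 1 / (8 * (N ^ 3 + 1))

theorem rr_pos (N : ℕ) : 0 < rr N := by unfold rr; positivity

/-- The triple product of the kernel is the phase of the trace. -/
theorem kap_triple (P Q R : CP N) (h : t3 P.1 Q.1 R.1 ≠ 0) :
    kap P Q * kap Q R * kap R P = phs (t3 P.1 Q.1 R.1) := by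
  have h1 : t3 P.1 Q.1 R.1 = ip (uv P) (uv Q) * ip (uv Q) (uv R) * ip (uv R) (uv P) := by
    rw [← t3_prj, prj_uv, prj_uv, prj_uv]
  rw [h1] at h ⊢
  have h2 := left_ne_zero_of_mul h
  rw [phs_mul h2 (right_ne_zero_of_mul h), phs_mul (left_ne_zero_of_mul h2)
    (right_ne_zero_of_mul h2)]
  rfl

theorem half_le_re_t3 {P Q R : CP N} (h1 : dist P Q < rr N) (h2 : dist Q R < rr N) :
    1 / 2 ≤ (t3 P.1 Q.1 R.1).re := by
  have e1 : dist P Q = ‖P.1 - Q.1‖ := by rw [Subtype.dist_eq, dist_eq_norm]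
  have e2 : dist Q R = ‖R.1 - Q.1‖ := by rw [dist_comm, Subtype.dist_eq, dist_eq_norm]
  have h3 := norm_t3_sub_one_le (P := P.1) (R := R.1) (ns_uv Q)
  rw [prj_uv, ← e1, ← e2] at h3
  have hN : (0 : ℝ) ≤ (N : ℝ) ^ 3 := by positivity
  have hr : ((N : ℝ) ^ 3 + 1) * rr N = 1 / 8 := by
    unfold rr
    field_simp
  have hr1 : rr N ≤ 1 / 8 := by
    have := rr_pos N
    nlinarith
  have hX : 0 ≤ dist P Q := dist_nonneg
  have hY : 0 ≤ dist Q R := dist_nonneg
  have h4 : dist P Q * dist Q R ≤ dist P Q := by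
    have : dist Q R ≤ 1 := by linarith
    nlinarith
  have h5 : (N : ℝ) ^ 3 * (dist P Q + dist Q R + dist P Q * dist Q R) ≤ 3 / 8 := by
    have h6 : dist P Q + dist Q R + dist P Q * dist Q R ≤ 3 * rr N := by linarith
    have h7 := mul_le_mul_of_nonneg_left h6 hN
    nlinarith [rr_pos N]
  have h8 : |(t3 P.1 Q.1 R.1 - 1).re| ≤ ‖t3 P.1 Q.1 R.1 - 1‖ := Complex.abs_re_le_norm _
  rw [Complex.sub_re, Complex.one_re] at h8
  have h9 := (abs_le.1 (h8.trans (h3.trans h5))).1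
  linarith

theorem ker_kap (N : ℕ) : Ker (kap (N := N)) (4 * (N : ℝ) ^ 3) (rr N) where
  r_pos := rr_pos N
  A_nonneg := by positivity
  norm_one P Q := norm_phs _
  symm P Q := by rw [kap, kap, ← phs_conj, ip_conj]
  self P := by rw [kap, ip_self, ns_uv]; simp
  area P Q R h1 h2 := by
    have h3 := half_le_re_t3 h1 h2
    have h0 : t3 P.1 Q.1 R.1 ≠ 0 := by
      intro h
      rw [h, Complex.zero_re] at h3
      norm_num at h3
    have e1 : dist P Q = ‖P.1 - Q.1‖ := by rw [Subtype.dist_eq, dist_eq_norm]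
    have e2 : dist Q R = ‖R.1 - Q.1‖ := by rw [dist_comm, Subtype.dist_eq, dist_eq_norm]
    rw [kap_triple P Q R h0]
    refine (norm_phs_sub_one h3).trans ?_
    have hH : ∀ P : CP N, Herm P.1 := fun P => by
      have := herm_prj (uv P)
      rwa [prj_uv] at this
    have hn : ‖Q.1‖ ≤ 1 := by
      have := norm_prj_le (ns_uv Q)
      rwa [prj_uv] at this
    have h4 := abs_im_t3_le (hH P) (hH Q) (hH R) hn
    rw [e1, e2]
    linarith

/-- Pull back of a kernel by a Lipschitz map. -/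
theorem ker_pull {M M' : Type*} [MetricSpace M] [MetricSpace M'] {κ : M' → M' → ℂ} {A r : ℝ}
    (h : Ker κ A r) {F : M → M'} {L : ℝ} (hL : 0 < L) (hF : ∀ x y, dist (F x) (F y) ≤ L * dist x y) :
    Ker (fun x y => κ (F x) (F y)) (A * L ^ 2) (r / L) where
  r_pos := div_pos h.r_pos hL
  A_nonneg := mul_nonneg h.A_nonneg (by positivity)
  norm_one x y := h.norm_one _ _
  symm x y := h.symm _ _
  self x := h.self _
  area x y z h1 h2 := by
    rw [lt_div_iff₀ hL, mul_comm] at h1 h2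
    refine (h.area _ _ _ ((hF x y).trans_lt h1) ((hF y z).trans_lt h2)).trans ?_
    have hA := h.A_nonneg
    have e1 := hF x y
    have e2 := hF y z
    calc A * dist (F x) (F y) * dist (F y) (F z) ≤ A * (L * dist x y) * (L * dist y z) := by
          gcongr
      _ = A * L ^ 2 * dist x y * dist y z := by ring

end Vale.Agent.P216.Ker923
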