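import Vale.Agent.P216.Ker923.Kernel

/-!
# Lipschitz approximation of continuous maps to complex projective space

Every continuous map `M → CP N` of a compact metric space is uniformly approximated by Lipschitz
maps `M → CP N`.
-/

namespace Vale.Agent.P216.Ker923

open Vale.Agent.P216.H391 Set
open scoped ComplexConjugate

/-! ### Lipschitz approximation in a normed space -/

/-- Lipschitz approximation by convex combinations of the values. -/
theorem exists_lip_approx {M : Type*} [MetricSpace M] [CompactSpace M] {E : Type*}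
    [NormedAddCommGroup E] [NormedSpace ℝ E] {Φ : M → E} (hΦ : Continuous Φ) {B : ℝ}
    (hB : ∀ x, ‖Φ x‖ ≤ B) {η : ℝ} (hη : 0 < η) :
    ∃ (A : M → E) (L : ℝ), 0 < L ∧ (∀ x y, ‖A x - A y‖ ≤ L * dist x y) ∧
      (∀ x, ‖A x - Φ x‖ ≤ η) ∧ ∀ x, A x ∈ convexHull ℝ (range Φ) := by
  classical
  rcases isEmpty_or_nonempty M with hM | hM
  · exact ⟨fun x => (hM.false x).elim, 1, one_pos, fun x => (hM.false x).elim,
      fun x => (hM.false x).elim, fun x => (hM.false x).elim⟩
  have hB0 : 0 ≤ B := (norm_nonneg _).trans (hB hM.some)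
  -- uniform continuity
  obtain ⟨δ, hδ, huc⟩ := Metric.uniformContinuous_iff.1 (CompactSpace.uniformContinuous_of_continuous hΦ)
    η hη
  -- a finite net
  obtain ⟨t, -, ht⟩ := (isCompact_univ (X := M)).elim_finite_subcover_image
    (b := univ) (c := fun x => Metric.ball x (δ / 2)) (fun x _ => Metric.isOpen_ball)
    (fun x _ => mem_iUnion₂.2 ⟨x, mem_univ _, Metric.mem_ball_self (by positivity)⟩)
  obtain ⟨tf, ht⟩ := ht
  set T := tf.toFinset with hT
  let h : M → M → ℝ := fun i x => max 0 (δ - dist x i)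
  let S : M → ℝ := fun x => ∑ i ∈ T, h i x
  have h0 : ∀ i x, 0 ≤ h i x := fun i x => le_max_left _ _
  have hlip : ∀ i x y, |h i x - h i y| ≤ dist x y := by
    intro i x y
    have e1 : |h i x - h i y| ≤ |(δ - dist x i) - (δ - dist y i)| := by
      have := abs_max_sub_max_le_abs (δ - dist x i) (δ - dist y i) 0
      simpa only [h, max_comm (0 : ℝ)] using this
    refine e1.trans ?_
    rw [show (δ - dist x i) - (δ - dist y i) = -(dist x i - dist y i) by ring, abs_neg]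
    exact abs_dist_sub_le x y i
  have hS : ∀ x, δ / 2 ≤ S x := by
    intro x
    obtain ⟨i, hi, hx⟩ := mem_iUnion₂.1 (ht (mem_univ x))
    have hiT : i ∈ T := (Set.Finite.mem_toFinset tf).2 hi
    have e1 : h i x ≤ S x := Finset.single_le_sum (f := fun i => h i x) (fun i _ => h0 i x) hiT
    have e2 : dist x i < δ / 2 := hx
    have e3 : δ - dist x i ≤ h i x := le_max_right _ _
    linarith
  have hS0 : ∀ x, 0 < S x := fun x => (by positivity : 0 < δ / 2).trans_le (hS x)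
  let W : M → E := fun x => ∑ i ∈ T, h i x • Φ i
  have hWn : ∀ x, ‖W x‖ ≤ S x * B := by
    intro x
    refine (norm_sum_le _ _).trans ?_
    rw [Finset.sum_mul]
    refine Finset.sum_le_sum fun i _ => ?_
    rw [norm_smul, Real.norm_of_nonneg (h0 i x)]
    exact mul_le_mul_of_nonneg_left (hB i) (h0 i x)
  have hWl : ∀ x y, ‖W x - W y‖ ≤ T.card * B * dist x y := by
    intro x y
    have e1 : W x - W y = ∑ i ∈ T, (h i x - h i y) • Φ i := by
      simp only [W, sub_smul, Finset.sum_sub_distrib]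
    rw [e1]
    refine (norm_sum_le _ _).trans ?_
    have e2 : ∀ i ∈ T, ‖(h i x - h i y) • Φ i‖ ≤ dist x y * B := by
      intro i _
      rw [norm_smul, Real.norm_eq_abs]
      have e3 := hlip i x y
      have e4 := hB i
      have e5 : (0 : ℝ) ≤ dist x y := dist_nonneg
      gcongr
    refine (Finset.sum_le_sum e2).trans (le_of_eq ?_)
    rw [Finset.sum_const, nsmul_eq_mul]
    ring
  have hSl : ∀ x y, |S x - S y| ≤ T.card * dist x y := by
    intro x y
    have e1 : S x - S y = ∑ i ∈ T, (h i x - h i y) := by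
      simp only [S, Finset.sum_sub_distrib]
    rw [e1]
    refine (Finset.abs_sum_le_sum_abs _ _).trans ?_
    refine (Finset.sum_le_sum fun i _ => hlip i x y).trans (le_of_eq ?_)
    rw [Finset.sum_const, nsmul_eq_mul]
  refine ⟨fun x => (S x)⁻¹ • W x, 4 * T.card * B / δ + 1, by positivity, fun x y => ?_,
    fun x => ?_, fun x => ?_⟩
  · -- Lipschitz
    have e1 : (S x)⁻¹ • W x - (S y)⁻¹ • W y =
        (S x)⁻¹ • (W x - W y) + ((S x)⁻¹ * ((S y - S x) * (S y)⁻¹)) • W y := by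
      have e2 : (S x)⁻¹ * ((S y - S x) * (S y)⁻¹) = (S x)⁻¹ - (S y)⁻¹ := by
        have := (hS0 x).ne'
        have := (hS0 y).ne'
        field_simp
      rw [e2, smul_sub, sub_smul]
      abel
    rw [e1]
    refine (norm_add_le _ _).trans ?_
    rw [norm_smul, norm_smul, norm_mul, norm_mul, norm_inv, norm_inv, Real.norm_of_nonneg (hS0 x).le,
      Real.norm_of_nonneg (hS0 y).le, Real.norm_eq_abs, abs_sub_comm]
    have hd : (0 : ℝ) ≤ dist x y := dist_nonneg
    have e3 : (S x)⁻¹ ≤ 2 / δ := by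
      rw [inv_le_comm₀ (hS0 x) (by positivity), inv_div]
      exact hS x
    have e4 : (S x)⁻¹ * ‖W x - W y‖ ≤ 2 / δ * (T.card * B * dist x y) := by
      have := hWl x y
      have := inv_nonneg.2 (hS0 x).le
      gcongr
    have e5 : (S x)⁻¹ * (|S x - S y| * (S y)⁻¹) * ‖W y‖ ≤ 2 / δ * (T.card * B * dist x y) := by
      have e6 : (S y)⁻¹ * ‖W y‖ ≤ B := by
        rw [inv_mul_le_iff₀ (hS0 y)]
        exact hWn y
      calc (S x)⁻¹ * (|S x - S y| * (S y)⁻¹) * ‖W y‖
          = (S x)⁻¹ * (|S x - S y| * ((S y)⁻¹ * ‖W y‖)) := by ring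
        _ ≤ 2 / δ * ((T.card * dist x y) * B) := by
            have := hSl x y
            have h7 : 0 ≤ (S y)⁻¹ * ‖W y‖ :=
              mul_nonneg (inv_nonneg.2 (hS0 y).le) (norm_nonneg _)
            gcongr
        _ = 2 / δ * (T.card * B * dist x y) := by ring
    have e7 : (4 * T.card * B / δ + 1) * dist x y =
        2 / δ * (T.card * B * dist x y) + 2 / δ * (T.card * B * dist x y) + dist x y := by
      field_simp
      ring
    rw [e7]
    linarith
  · -- approximation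
    have e1 : (S x)⁻¹ • W x - Φ x = (S x)⁻¹ • ∑ i ∈ T, h i x • (Φ i - Φ x) := by
      have e2 : ∑ i ∈ T, h i x • (Φ i - Φ x) = W x - S x • Φ x := by
        simp only [W, S, smul_sub, Finset.sum_sub_distrib, Finset.sum_smul]
      rw [e2, smul_sub, smul_smul, inv_mul_cancel₀ (hS0 x).ne', one_smul]
    change ‖(S x)⁻¹ • W x - Φ x‖ ≤ η
    rw [e1, norm_smul, norm_inv, Real.norm_of_nonneg (hS0 x).le, inv_mul_le_iff₀ (hS0 x)]
    refine (norm_sum_le _ _).trans ?_
    rw [Finset.sum_mul]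
    refine Finset.sum_le_sum fun i _ => ?_
    rw [norm_smul, Real.norm_of_nonneg (h0 i x)]
    by_cases hi : dist x i < δ
    · have := huc hi
      rw [dist_comm, dist_eq_norm] at this
      exact mul_le_mul_of_nonneg_left this.le (h0 i x)
    · have : h i x = 0 := max_eq_left (by linarith)
      rw [this]
      simp
  · -- convex hull
    have e1 : (S x)⁻¹ • W x = ∑ i ∈ T, ((S x)⁻¹ * h i x) • Φ i := by
      simp only [W, Finset.smul_sum, smul_smul]
    change (S x)⁻¹ • W x ∈ _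
    rw [e1]
    refine (convex_convexHull ℝ (range Φ)).sum_mem (fun i _ => ?_) ?_ fun i _ => ?_
    · exact mul_nonneg (inv_nonneg.2 (hS0 x).le) (h0 i x)
    · rw [← Finset.mul_sum]
      exact inv_mul_cancel₀ (hS0 x).ne'
    · exact subset_convexHull ℝ _ (mem_range_self i)

/-! ### Sesquilinear forms -/

variable {N : ℕ}

/-- The sesquilinear form of a matrix. -/
noncomputable def qf (A : Mt N) (v w : Fin N → ℂ) : ℂ := ∑ i, ∑ j, conj (v i) * A i j * w j

theorem qf_add_left (A : Mt N) (v v' w : Fin N → ℂ) : qf A (v + v') w = qf A v w + qf A v' w := by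
  simp only [qf, Pi.add_apply, map_add, add_mul, Finset.sum_add_distrib]

theorem qf_add_right (A : Mt N) (v w w' : Fin N → ℂ) : qf A v (w + w') = qf A v w + qf A v w' := by
  simp only [qf, Pi.add_apply, mul_add, Finset.sum_add_distrib]

theorem qf_smul_left (A : Mt N) (c : ℂ) (v w : Fin N → ℂ) :
    qf A (c • v) w = conj c * qf A v w := by
  simp only [qf, Pi.smul_apply, smul_eq_mul, map_mul, Finset.mul_sum]
  exact Finset.sum_congr rfl fun _ _ => Finset.sum_congr rfl fun _ _ => by ring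

theorem qf_smul_right (A : Mt N) (c : ℂ) (v w : Fin N → ℂ) : qf A v (c • w) = c * qf A v w := by
  simp only [qf, Pi.smul_apply, smul_eq_mul, Finset.mul_sum]
  exact Finset.sum_congr rfl fun _ _ => Finset.sum_congr rfl fun _ _ => by ring

theorem qf_add (A B : Mt N) (v w : Fin N → ℂ) : qf (A + B) v w = qf A v w + qf B v w := by
  simp only [qf, Pi.add_apply, mul_add, add_mul, Finset.sum_add_distrib]

theorem qf_sub (A B : Mt N) (v w : Fin N → ℂ) : qf (A - B) v w = qf A v w - qf B v w := by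
  simp only [qf, Pi.sub_apply, mul_sub, sub_mul, Finset.sum_sub_distrib]

theorem qf_conj {A : Mt N} (hA : Herm A) (v w : Fin N → ℂ) : conj (qf A v w) = qf A w v := by
  simp only [qf, map_sum, map_mul, Complex.conj_conj, hA _ _]
  rw [Finset.sum_comm]
  exact Finset.sum_congr rfl fun _ _ => Finset.sum_congr rfl fun _ _ => by ring

theorem qf_prj (u v w : Fin N → ℂ) : qf (prj u) v w = ip v u * ip u w := by
  simp only [qf, prj, ip, Finset.sum_mul_sum]
  exact Finset.sum_congr rfl fun _ _ => Finset.sum_congr rfl fun _ _ => by ring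

theorem ip_add_left (v v' w : Fin N → ℂ) : ip (v + v') w = ip v w + ip v' w := by
  simp only [ip, Pi.add_apply, map_add, add_mul, Finset.sum_add_distrib]

theorem ip_add_right (v w w' : Fin N → ℂ) : ip v (w + w') = ip v w + ip v w' := by
  simp only [ip, Pi.add_apply, mul_add, Finset.sum_add_distrib]

theorem ip_smul_left (c : ℂ) (v w : Fin N → ℂ) : ip (c • v) w = conj c * ip v w := by
  simp only [ip, Pi.smul_apply, smul_eq_mul, map_mul, Finset.mul_sum]
  exact Finset.sum_congr rfl fun _ _ => by ring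

theorem ip_smul_right (c : ℂ) (v w : Fin N → ℂ) : ip v (c • w) = c * ip v w := by
  simp only [ip, Pi.smul_apply, smul_eq_mul, Finset.mul_sum]
  exact Finset.sum_congr rfl fun _ _ => by ring

theorem norm_ip_sq_le (v w : Fin N → ℂ) : ‖ip v w‖ ^ 2 ≤ ns v * ns w := by
  have h1 : ‖ip v w‖ ≤ ∑ i, ‖v i‖ * ‖w i‖ := by
    refine norm_sum_le_of_le _ fun i _ => ?_
    rw [norm_mul, RCLike.norm_conj]
  have h2 := Finset.sum_mul_sq_le_sq_mul_sq Finset.univ (fun i => ‖v i‖) (fun i => ‖w i‖)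
  exact (pow_le_pow_left₀ (norm_nonneg _) h1 2).trans h2

/-- Pythagoras. -/
theorem ns_add_of_orth {v z : Fin N → ℂ} (h : ip v z = 0) : ns (v + z) = ns v + ns z := by
  have h' : ip z v = 0 := by rw [← ip_conj, h, map_zero]
  have h1 : ((ns (v + z) : ℝ) : ℂ) = ((ns v + ns z : ℝ) : ℂ) := by
    rw [← ip_self, ip_add_left, ip_add_right, ip_add_right, h, h', ip_self, ip_self]
    push_cast
    ring
  exact_mod_cast h1

theorem norm_qf_le (A : Mt N) (v w : Fin N → ℂ) :
    ‖qf A v w‖ ≤ ‖A‖ * ((∑ i, ‖v i‖) * ∑ i, ‖w i‖) := by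
  rw [Finset.sum_mul_sum, Finset.mul_sum]
  refine norm_sum_le_of_le _ fun i _ => ?_
  rw [Finset.mul_sum]
  refine norm_sum_le_of_le _ fun j _ => ?_
  rw [norm_mul, norm_mul, RCLike.norm_conj]
  have hA : ‖A i j‖ ≤ ‖A‖ := (norm_le_pi_norm (A i) j).trans (norm_le_pi_norm A i)
  calc ‖v i‖ * ‖A i j‖ * ‖w j‖ ≤ ‖v i‖ * ‖A‖ * ‖w j‖ := by gcongr
    _ = ‖A‖ * (‖v i‖ * ‖w j‖) := by ring

theorem norm_qf_self_le (A : Mt N) (v : Fin N → ℂ) : ‖qf A v v‖ ≤ N * ‖A‖ * ns v := by
  have h1 := norm_qf_le A v v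
  have h2 : (∑ i, ‖v i‖) ^ 2 ≤ N * ns v := by
    have := Finset.sum_mul_sq_le_sq_mul_sq Finset.univ (fun _ : Fin N => (1 : ℝ)) (fun i => ‖v i‖)
    simpa [ns] using this
  calc ‖qf A v v‖ ≤ ‖A‖ * (∑ i, ‖v i‖) ^ 2 := by rw [sq]; exact h1
    _ ≤ ‖A‖ * (N * ns v) := by gcongr
    _ = N * ‖A‖ * ns v := by ring

/-- The linear functional of `A` on matrices. -/
noncomputable def trr (A P : Mt N) : ℝ := (∑ i, ∑ j, A i j * P j i).re

theorem trr_prj (A : Mt N) (v : Fin N → ℂ) : trr A (prj v) = (qf A v v).re := by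
  unfold trr qf prj
  congr 1
  exact Finset.sum_congr rfl fun _ _ => Finset.sum_congr rfl fun _ _ => by ring

theorem continuous_trr (A : Mt N) : Continuous (trr A) := by
  unfold trr
  fun_prop

theorem trr_npr (A : Mt N) (v : Fin N → ℂ) : trr A (npr v) * ns v = (qf A v v).re := by
  by_cases h0 : ns v = 0
  · have hv : ∀ i, v i = 0 := by
      intro i
      have h2 : ‖v i‖ ^ 2 ≤ ns v :=
        Finset.single_le_sum (f := fun i => ‖v i‖ ^ 2) (fun _ _ => by positivity)
          (Finset.mem_univ i)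
      rw [h0] at h2
      have h3 : ‖v i‖ = 0 := by nlinarith [norm_nonneg (v i)]
      exact norm_eq_zero.1 h3
    have : qf A v v = 0 := by
      simp [qf, hv]
    rw [h0, this]
    simp
  · have h1 : (∑ i, ∑ j, A i j * npr v j i) * ((ns v : ℝ) : ℂ) = qf A v v := by
      have h2 : ((ns v : ℝ) : ℂ) ≠ 0 := by exact_mod_cast h0
      simp only [qf, npr, Finset.sum_mul]
      refine Finset.sum_congr rfl fun i _ => Finset.sum_congr rfl fun j _ => ?_
      field_simp
    rw [← h1, Complex.re_mul_ofReal]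
    rfl

theorem trr_sub_left (A B P : Mt N) : trr (A - B) P = trr A P - trr B P := by
  simp only [trr, Pi.sub_apply, sub_mul, Finset.sum_sub_distrib, Complex.sub_re]

theorem trr_sub_right (A P Q : Mt N) : trr A (P - Q) = trr A P - trr A Q := by
  simp only [trr, Pi.sub_apply, mul_sub, Finset.sum_sub_distrib, Complex.sub_re]

theorem trr_le (A P : Mt N) : trr A P ≤ (N : ℝ) ^ 2 * (‖A‖ * ‖P‖) := by
  refine (Complex.re_le_norm _).trans ?_
  have h1 : ∀ i j : Fin N, ‖A i j * P j i‖ ≤ ‖A‖ * ‖P‖ := by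
    intro i j
    rw [norm_mul]
    have hA : ‖A i j‖ ≤ ‖A‖ := (norm_le_pi_norm (A i) j).trans (norm_le_pi_norm A i)
    have hP : ‖P j i‖ ≤ ‖P‖ := (norm_le_pi_norm (P j) i).trans (norm_le_pi_norm P j)
    gcongr
  have h2 : ‖∑ i, ∑ j, A i j * P j i‖ ≤ ∑ _i : Fin N, ∑ _j : Fin N, ‖A‖ * ‖P‖ :=
    norm_sum_le_of_le _ fun i _ => norm_sum_le_of_le _ fun j _ => h1 i j
  refine h2.trans (le_of_eq ?_)
  simp only [Finset.sum_const, Finset.card_univ, Fintype.card_fin, nsmul_eq_mul]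
  ring

/-! ### Maximisers of `trr A` on the projective space -/

/-- `v` is a unit vector whose line maximises `trr A`. -/
structure Maxim (A : Mt N) (v : Fin N → ℂ) : Prop where
  unit : ns v = 1
  le : ∀ Q ∈ CP N, trr A Q ≤ trr A (prj v)

theorem exists_maxim (hN : (CP N).Nonempty) (A : Mt N) : ∃ v, Maxim A v := by
  obtain ⟨P, ⟨v, hv, rfl⟩, h⟩ := (isCompact_CP N).exists_isMaxOn hN (continuous_trr A).continuousOn
  exact ⟨v, hv, fun Q hQ => h hQ⟩

theorem qf_expand {A : Mt N} (hA : Herm A) (v z : Fin N → ℂ) (t : ℂ) :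
    qf A (v + t • z) (v + t • z) = qf A v v + t * qf A v z + conj (t * qf A v z) +
      ((‖t‖ ^ 2 : ℝ) : ℂ) * qf A z z := by
  rw [qf_add_left, qf_add_right, qf_add_right, qf_smul_left, qf_smul_left, qf_smul_right,
    qf_smul_right, map_mul, qf_conj hA, ← Complex.normSq_eq_norm_sq, ← Complex.mul_conj]
  ring

theorem qf_expand' (A : Mt N) (v z : Fin N → ℂ) (a : ℂ) :
    qf A (a • v + z) (a • v + z) = ((‖a‖ ^ 2 : ℝ) : ℂ) * qf A v v + conj a * qf A v z +
      a * qf A z v + qf A z z := by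
  rw [qf_add_left, qf_add_right, qf_add_right, qf_smul_left, qf_smul_left, qf_smul_right,
    qf_smul_right, ← Complex.normSq_eq_norm_sq, ← Complex.mul_conj]
  ring

theorem hvz'_helper {v z : Fin N → ℂ} (h : ip v z = 0) (c : ℂ) : ip (c • v) z = 0 := by
  rw [ip_smul_left, h, mul_zero]

/-- First order condition. -/
theorem Maxim.orth {A : Mt N} (hA : Herm A) {v : Fin N → ℂ} (h : Maxim A v) {z : Fin N → ℂ}
    (hz : ip v z = 0) : qf A v z = 0 := by
  by_contra hb
  set b := qf A v z with hbdef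
  set c : ℝ := trr A (prj v) * ns z - (qf A z z).re with hc
  set s : ℝ := 1 / (|c| + 1) with hs
  have hs0 : 0 < s := by positivity
  set t : ℂ := (s : ℂ) * conj b with ht
  have hb0 : 0 < ‖b‖ ^ 2 := by
    have := norm_pos_iff.2 hb
    positivity
  have hzt : ip v (t • z) = 0 := by rw [ip_smul_right, hz, mul_zero]
  have e1 : ns (v + t • z) = 1 + ‖t‖ ^ 2 * ns z := by
    rw [ns_add_of_orth hzt, ns_smul, h.unit]
  have hns : 0 < ns (v + t • z) := by
    rw [e1]
    have := ns_nonneg z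
    positivity
  have e2 : (qf A (v + t • z) (v + t • z)).re =
      trr A (prj v) + 2 * (s * ‖b‖ ^ 2) + ‖t‖ ^ 2 * (qf A z z).re := by
    have e3 : qf A (v + t • z) (v + t • z) = qf A v v + t * b + conj (t * b) +
        ((‖t‖ ^ 2 : ℝ) : ℂ) * qf A z z := qf_expand hA v z t
    have e4 : t * b = ((s * ‖b‖ ^ 2 : ℝ) : ℂ) := by
      rw [ht, mul_assoc, mul_comm (conj b), Complex.mul_conj, Complex.normSq_eq_norm_sq]
      push_cast
      ring
    rw [e3, e4, trr_prj, Complex.conj_ofReal]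
    simp only [Complex.add_re, Complex.ofReal_re, Complex.re_ofReal_mul]
    ring
  have e5 : trr A (npr (v + t • z)) ≤ trr A (prj v) := h.le _ (npr_mem hns)
  have e6 := trr_npr A (v + t • z)
  have e7 : ‖t‖ ^ 2 = s ^ 2 * ‖b‖ ^ 2 := by
    rw [ht, norm_mul, RCLike.norm_conj, Complex.norm_real, Real.norm_of_nonneg hs0.le, mul_pow]
  have e8 : trr A (prj v) + 2 * (s * ‖b‖ ^ 2) + ‖t‖ ^ 2 * (qf A z z).re ≤
      trr A (prj v) * (1 + ‖t‖ ^ 2 * ns z) := by
    rw [← e2, ← e6, ← e1]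
    exact mul_le_mul_of_nonneg_right e5 hns.le
  rw [e7] at e8
  have e9 : s * ‖b‖ ^ 2 * 2 ≤ s * ‖b‖ ^ 2 * (s * c) := by
    rw [hc]
    linarith
  have e10 : 2 ≤ s * c := le_of_mul_le_mul_left e9 (by positivity)
  have e11 : s * c ≤ 1 := by
    rw [hs, div_mul_eq_mul_div, one_mul, div_le_one (by positivity)]
    linarith [le_abs_self c]
  linarith

/-- Quadratic growth at the maximiser. -/
theorem Maxim.growth {A : Mt N} (hA : Herm A) {u : Fin N → ℂ} (hu : ns u = 1)
    (hη : N * ‖A - prj u‖ ≤ 1 / 8) {v : Fin N → ℂ} (h : Maxim A v) {w : Fin N → ℂ}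
    (hw : ns w = 1) : 1 / 2 * (1 - ‖ip v w‖ ^ 2) ≤ trr A (prj v) - trr A (prj w) := by
  set η := N * ‖A - prj u‖ with hηd
  have hv := h.unit
  set α := ip v w with hα
  set z := w + (-α) • v with hz
  have hvz : ip v z = 0 := by
    rw [hz, ip_add_right, ip_smul_right, ip_self, hv, ← hα]
    simp
  have hw' : w = α • v + z := by
    rw [hz]
    module
  have hvz' : ip (α • v) z = 0 := by rw [ip_smul_left, hvz, mul_zero]
  have hnz : ns z = 1 - ‖α‖ ^ 2 := by
    have h1 : ns w = ‖α‖ ^ 2 * 1 + ns z := by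
      conv_lhs => rw [hw']
      rw [ns_add_of_orth hvz', ns_smul, hv]
    rw [hw] at h1
    linarith
  have hnz0 := ns_nonneg z
  -- the error terms
  have hE : ∀ x, |(qf A x x).re - ‖ip u x‖ ^ 2| ≤ η * ns x := by
    intro x
    have h1 : qf A x x = qf (A - prj u) x x + ((‖ip u x‖ ^ 2 : ℝ) : ℂ) := by
      rw [qf_sub, qf_prj, ← ip_conj u x, mul_comm (conj _), Complex.mul_conj,
        Complex.normSq_eq_norm_sq]
      ring
    rw [h1, Complex.add_re, Complex.ofReal_re, add_sub_cancel_right]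
    exact (Complex.abs_re_le_norm _).trans (norm_qf_self_le _ _)
  -- the value at `v`
  have hlow : 1 - η ≤ trr A (prj v) := by
    have h1 := h.le (prj u) ⟨u, hu, rfl⟩
    have h2 := (abs_le.1 (hE u)).1
    rw [ip_self, hu] at h2
    rw [trr_prj A u] at h1
    simp at h2
    linarith
  have hup : trr A (prj v) ≤ ‖ip u v‖ ^ 2 + η := by
    have h2 := (abs_le.1 (hE v)).2
    rw [hv] at h2
    rw [trr_prj]
    linarith
  -- Bessel
  have hbes : ‖ip u z‖ ^ 2 ≤ (1 - ‖ip u v‖ ^ 2) * ns z := by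
    set β := ip v u with hβ
    set y := u + (-β) • v with hy
    have hvy : ip v y = 0 := by
      rw [hy, ip_add_right, ip_smul_right, ip_self, hv, ← hβ]
      simp
    have hu' : u = β • v + y := by
      rw [hy]
      module
    have hvy' : ip (β • v) y = 0 := by rw [ip_smul_left, hvy, mul_zero]
    have hny : ns y = 1 - ‖β‖ ^ 2 := by
      have h1 : ns u = ‖β‖ ^ 2 * 1 + ns y := by
        conv_lhs => rw [hu']
        rw [ns_add_of_orth hvy', ns_smul, hv]
      rw [hu] at h1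
      linarith
    have h1 : ip u z = ip y z := by
      conv_lhs => rw [hu']
      rw [ip_add_left, hvz'_helper hvz β, zero_add]
    have h2 : ‖ip u v‖ = ‖β‖ := by
      rw [hβ, ← ip_conj, RCLike.norm_conj]
    rw [h1, h2, ← hny]
    exact norm_ip_sq_le y z
  have hqz : (qf A z z).re ≤ 3 * η * ns z := by
    have h1 := (abs_le.1 (hE z)).2
    have h2 : 1 - ‖ip u v‖ ^ 2 ≤ 2 * η := by linarith
    have h3 := mul_le_mul_of_nonneg_right h2 hnz0
    linarith
  have hqw : trr A (prj w) = ‖α‖ ^ 2 * trr A (prj v) + (qf A z z).re := by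
    have h0 := h.orth hA hvz
    have h0' : qf A z v = 0 := by rw [← qf_conj hA, h0, map_zero]
    have h1 : qf A w w = ((‖α‖ ^ 2 : ℝ) : ℂ) * qf A v v + qf A z z := by
      have h2 := qf_expand' A v z α
      rw [← hw', h0, h0'] at h2
      rw [h2]
      ring
    rw [trr_prj, h1, trr_prj, Complex.add_re, Complex.re_ofReal_mul]
  rw [hqw]
  have h5 : (1 - η) * ns z ≤ trr A (prj v) * ns z := mul_le_mul_of_nonneg_right hlow hnz0
  have h6 : η * ns z ≤ 1 / 8 * ns z := mul_le_mul_of_nonneg_right hη hnz0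
  have h7 : trr A (prj v) - (‖α‖ ^ 2 * trr A (prj v) + (qf A z z).re) =
      trr A (prj v) * ns z - (qf A z z).re := by
    rw [hnz]
    ring
  rw [h7, ← hnz]
  linarith

theorem norm_prj_sub_sq_le {v w : Fin N → ℂ} (hv : ns v = 1) (hw : ns w = 1) :
    ‖prj v - prj w‖ ^ 2 ≤ 2 * (1 - ‖ip v w‖ ^ 2) := by
  have h1 : ((∑ i, ∑ j, ‖(prj v - prj w) i j‖ ^ 2 : ℝ) : ℂ) =
      ((2 * (1 - ‖ip v w‖ ^ 2) : ℝ) : ℂ) := by
    have e1 : ((‖ip v w‖ ^ 2 : ℝ) : ℂ) = ip v w * ip w v := by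
      rw [← ip_conj v w, Complex.mul_conj, Complex.normSq_eq_norm_sq]
    have e2 : (1 : ℂ) = ip v v := by rw [ip_self, hv]; simp
    have e3 : (1 : ℂ) = ip w w := by rw [ip_self, hw]; simp
    have e4 : ((2 * (1 - ‖ip v w‖ ^ 2) : ℝ) : ℂ) =
        ip v v * ip v v + ip w w * ip w w - ip v w * ip w v - ip w v * ip v w := by
      rw [← e2, ← e3]
      push_cast
      push_cast at e1
      rw [e1]
      ring
    rw [e4]
    simp only [ip, Finset.sum_mul_sum]
    rw [← Finset.sum_add_distrib, ← Finset.sum_sub_distrib, ← Finset.sum_sub_distrib]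
    push_cast
    refine Finset.sum_congr rfl fun i _ => ?_
    rw [← Finset.sum_add_distrib, ← Finset.sum_sub_distrib, ← Finset.sum_sub_distrib]
    refine Finset.sum_congr rfl fun j _ => ?_
    have e5 : ((‖(prj v - prj w) i j‖ : ℂ)) ^ 2 =
        (prj v - prj w) i j * conj ((prj v - prj w) i j) := by
      rw [Complex.mul_conj, Complex.normSq_eq_norm_sq]
      push_cast
      rfl
    rw [e5]
    simp only [Pi.sub_apply, prj, map_sub, map_mul, Complex.conj_conj]
    ring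
  have h2 : (∑ i, ∑ j, ‖(prj v - prj w) i j‖ ^ 2 : ℝ) = 2 * (1 - ‖ip v w‖ ^ 2) := by
    exact_mod_cast h1
  rw [← h2]
  have h3 : (0 : ℝ) ≤ ∑ i, ∑ j, ‖(prj v - prj w) i j‖ ^ 2 :=
    Finset.sum_nonneg fun _ _ => Finset.sum_nonneg fun _ _ => by positivity
  have h4 : ‖prj v - prj w‖ ≤ √(∑ i, ∑ j, ‖(prj v - prj w) i j‖ ^ 2) := by
    rw [pi_norm_le_iff_of_nonneg (Real.sqrt_nonneg _)]
    intro i
    rw [pi_norm_le_iff_of_nonneg (Real.sqrt_nonneg _)]
    intro j
    refine Real.le_sqrt_of_sq_le ?_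
    refine (Finset.single_le_sum (f := fun j => ‖(prj v - prj w) i j‖ ^ 2)
      (fun _ _ => by positivity) (Finset.mem_univ j)).trans ?_
    exact Finset.single_le_sum (f := fun i => ∑ j, ‖(prj v - prj w) i j‖ ^ 2)
      (fun _ _ => Finset.sum_nonneg fun _ _ => by positivity) (Finset.mem_univ i)
  calc ‖prj v - prj w‖ ^ 2 ≤ (√(∑ i, ∑ j, ‖(prj v - prj w) i j‖ ^ 2)) ^ 2 := by gcongr
    _ = _ := Real.sq_sqrt h3

/-- The maximisers depend on the matrix in a Lipschitz way. -/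
theorem Maxim.lip {A B : Mt N} (hA : Herm A) (hB : Herm B) {u u' : Fin N → ℂ} (hu : ns u = 1)
    (hu' : ns u' = 1) (hηA : N * ‖A - prj u‖ ≤ 1 / 8) (hηB : N * ‖B - prj u'‖ ≤ 1 / 8)
    {v w : Fin N → ℂ} (hv : Maxim A v) (hw : Maxim B w) :
    ‖prj v - prj w‖ ≤ 2 * (N : ℝ) ^ 2 * ‖A - B‖ := by
  have h1 := hv.growth hA hu hηA hw.unit
  have h2 := hw.growth hB hu' hηB hv.unit
  have h3 : ‖ip w v‖ = ‖ip v w‖ := by rw [← ip_conj, RCLike.norm_conj]
  rw [h3] at h2
  have h4 : 1 - ‖ip v w‖ ^ 2 ≤ trr (A - B) (prj v - prj w) := by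
    rw [trr_sub_right, trr_sub_left, trr_sub_left]
    linarith
  have h5 := trr_le (A - B) (prj v - prj w)
  have h6 := norm_prj_sub_sq_le hv.unit hw.unit
  have h7 : ‖prj v - prj w‖ * ‖prj v - prj w‖ ≤
      (2 * (N : ℝ) ^ 2 * ‖A - B‖) * ‖prj v - prj w‖ := by
    rw [← sq]
    linarith
  rcases (norm_nonneg (prj v - prj w)).eq_or_lt with h0 | h0
  · rw [← h0]
    positivity
  · exact le_of_mul_le_mul_right h7 h0

theorem herm_convex : Convex ℝ {P : Mt N | Herm P} := by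
  intro P hP Q hQ a b _ _ _ i j
  simp only [Pi.add_apply, Pi.smul_apply, Complex.real_smul, map_add, map_mul, Complex.conj_ofReal]
  rw [hP i j, hQ i j]

theorem maxim_self {u : Fin N → ℂ} (hu : ns u = 1) : Maxim (prj u) u where
  unit := hu
  le := by
    rintro Q ⟨w, hw, rfl⟩
    rw [trr_prj, trr_prj, qf_prj, qf_prj, ip_self, hu, ← ip_conj u w, mul_comm, Complex.mul_conj,
      Complex.normSq_eq_norm_sq]
    have := norm_ip_sq_le u w
    rw [hu, hw] at this
    simp only [Complex.ofReal_re, Complex.ofReal_one, mul_one, Complex.one_re]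
    linarith

/-- **Lipschitz approximation.** -/
theorem exists_lipschitz_approx {M : Type*} [MetricSpace M] [CompactSpace M] {Φ : M → Mt N}
    (hΦ : Continuous Φ) (hCP : ∀ x, Φ x ∈ CP N) {ε : ℝ} (hε : 0 < ε) :
    ∃ (Ψ : M → Mt N) (L : ℝ), 0 < L ∧ (∀ x, Ψ x ∈ CP N) ∧
      (∀ x y, dist (Ψ x) (Ψ y) ≤ L * dist x y) ∧ ∀ x, dist (Ψ x) (Φ x) ≤ ε := by
  classical
  have hbd : ∀ x, ‖Φ x‖ ≤ 1 := by
    intro x
    obtain ⟨v, hv, h⟩ := hCP x
    rw [h]
    exact norm_prj_le hv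
  set η : ℝ := min (1 / (8 * ((N : ℝ) + 1))) (ε / (2 * ((N : ℝ) ^ 2 + 1))) with hη
  have hη0 : 0 < η := lt_min (by positivity) (by positivity)
  obtain ⟨A, L, hL, hAL, hAΦ, hAc⟩ := exists_lip_approx hΦ hbd hη0
  have hAH : ∀ x, Herm (A x) := by
    intro x
    have h1 : convexHull ℝ (range Φ) ⊆ {P : Mt N | Herm P} := by
      refine convexHull_min ?_ herm_convex
      rintro _ ⟨y, rfl⟩
      obtain ⟨v, hv, h⟩ := hCP y
      rw [h]
      exact herm_prj v
    exact h1 (hAc x)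
  have hNη : (N : ℝ) * η ≤ 1 / 8 := by
    have h1 : η ≤ 1 / (8 * ((N : ℝ) + 1)) := min_le_left _ _
    have h2 : (N : ℝ) * (1 / (8 * ((N : ℝ) + 1))) ≤ 1 / 8 := by
      rw [mul_one_div, div_le_div_iff₀ (by positivity) (by positivity)]
      nlinarith [(Nat.cast_nonneg N : (0 : ℝ) ≤ N)]
    exact (mul_le_mul_of_nonneg_left h1 (Nat.cast_nonneg N)).trans h2
  have hnear : ∀ x, ∀ u, Φ x = prj u → N * ‖A x - prj u‖ ≤ 1 / 8 := by
    intro x u h
    rw [← h]
    exact (mul_le_mul_of_nonneg_left (hAΦ x) (Nat.cast_nonneg N)).trans hNη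
  have hmax : ∀ x, ∃ v, Maxim (A x) v := fun x => exists_maxim ⟨Φ x, hCP x⟩ (A x)
  choose v hv using hmax
  refine ⟨fun x => prj (v x), 2 * (N : ℝ) ^ 2 * L + 1, by positivity, fun x => ⟨v x, (hv x).unit,
    rfl⟩, fun x y => ?_, fun x => ?_⟩
  · obtain ⟨u, hu, hx⟩ := hCP x
    obtain ⟨u', hu', hy⟩ := hCP y
    rw [dist_eq_norm]
    refine ((hv x).lip (hAH x) (hAH y) hu hu' (hnear x u hx) (hnear y u' hy) (hv y)).trans ?_
    have h1 := hAL x y
    have h2 : (0 : ℝ) ≤ dist x y := dist_nonneg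
    calc 2 * (N : ℝ) ^ 2 * ‖A x - A y‖ ≤ 2 * (N : ℝ) ^ 2 * (L * dist x y) := by gcongr
      _ ≤ (2 * (N : ℝ) ^ 2 * L + 1) * dist x y := by linarith
  · obtain ⟨u, hu, hx⟩ := hCP x
    rw [dist_eq_norm, hx]
    have h0 : (N : ℝ) * ‖prj u - prj u‖ ≤ 1 / 8 := by simp
    refine ((hv x).lip (hAH x) (herm_prj u) hu hu (hnear x u hx) h0 (maxim_self hu)).trans ?_
    have h1 := hAΦ x
    rw [hx] at h1
    have h2 : η ≤ ε / (2 * ((N : ℝ) ^ 2 + 1)) := min_le_right _ _
    calc 2 * (N : ℝ) ^ 2 * ‖A x - prj u‖ ≤ 2 * (N : ℝ) ^ 2 * (ε / (2 * ((N : ℝ) ^ 2 + 1))) := by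
          have := h1.trans h2
          gcongr
      _ ≤ ε := by
          rw [mul_div_assoc', div_le_iff₀ (by positivity)]
          nlinarith

/-- The same with values in the subtype. -/
theorem exists_lipschitz_approx' {M : Type*} [MetricSpace M] [CompactSpace M] (Φ : C(M, CP N))
    {ε : ℝ} (hε : 0 < ε) : ∃ (Ψ : C(M, CP N)) (L : ℝ), 0 < L ∧
      (∀ x y, dist (Ψ x) (Ψ y) ≤ L * dist x y) ∧ ∀ x, dist (Ψ x) (Φ x) ≤ ε := by
  obtain ⟨Ψ, L, hL, hm, hl, hd⟩ := exists_lipschitz_approx (Φ := fun x => (Φ x).1)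
    (continuous_subtype_val.comp Φ.continuous) (fun x => (Φ x).2) hε
  have hc : Continuous Ψ := (LipschitzWith.of_dist_le_mul (K := L.toNNReal) fun x y => by
    rw [Real.coe_toNNReal _ hL.le]; exact hl x y).continuous
  exact ⟨⟨fun x => ⟨Ψ x, hm x⟩, hc.subtype_mk _⟩, L, hL, hl, hd⟩

/-- A kernel on `M` from a continuous map to the projective space, up to approximation. -/
theorem exists_ker {M : Type*} [MetricSpace M] [CompactSpace M] (Φ : C(M, CP N))
    {ε : ℝ} (hε : 0 < ε) : ∃ (Ψ : C(M, CP N)) (A r : ℝ), (∀ x, dist (Ψ x) (Φ x) ≤ ε) ∧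
      L250.Ker (fun x y => kap (Ψ x) (Ψ y)) A r := by
  obtain ⟨Ψ, L, hL, hl, hd⟩ := exists_lipschitz_approx' Φ hε
  exact ⟨Ψ, _, _, hd, ker_pull (ker_kap N) hL hl⟩

end Vale.Agent.P216.Ker923
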