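import Vale.Agent.P216.Ker923.Approx

/-!
# The kernel of complex projective space in terms of arbitrary unit vectors
-/

namespace Vale.Agent.P216.Ker923

open Vale.Agent.P216.H391 Set
open scoped ComplexConjugate

variable {N : ℕ}

theorem eq_smul_of_prj_eq {a b : Fin N → ℂ} (ha : ns a = 1) (h : prj a = prj b) :
    a = ip b a • b := by
  funext i
  have h1 : ∀ j, a i * conj (a j) = b i * conj (b j) := fun j => congrFun (congrFun h i) j
  have h2 : a i * ip a a = b i * ip b a := by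
    simp only [ip, Finset.mul_sum]
    refine Finset.sum_congr rfl fun j _ => ?_
    rw [← mul_assoc, h1 j, mul_assoc]
  rw [ip_self, ha, Complex.ofReal_one, mul_one] at h2
  rw [h2, Pi.smul_apply, smul_eq_mul, mul_comm]

theorem norm_ip_of_prj_eq {a b : Fin N → ℂ} (ha : ns a = 1) (hb : ns b = 1)
    (h : prj a = prj b) : ‖ip b a‖ = 1 := by
  have h1 := eq_smul_of_prj_eq ha h
  have h2 : ns a = ‖ip b a‖ ^ 2 * ns b := by
    conv_lhs => rw [h1]
    rw [ns_smul]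
  rw [ha, hb, mul_one] at h2
  have h3 := norm_nonneg (ip b a)
  nlinarith

theorem phs_unit_mul {c z : ℂ} (hc : ‖c‖ = 1) (hz : z ≠ 0) : phs (c * z) = c * phs z := by
  have hc0 : c ≠ 0 := by
    rintro rfl
    simp at hc
  rw [phs_mul hc0 hz, phs_of_ne hc0, hc]
  simp

theorem phs_real_mul {x : ℝ} (hx : 0 < x) {z : ℂ} (hz : z ≠ 0) : phs (x * z) = phs z := by
  have hx0 : (x : ℂ) ≠ 0 := by exact_mod_cast hx.ne'
  rw [phs_mul hx0 hz, phs_ofReal hx, one_mul]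

theorem prj_mem {v : Fin N → ℂ} (hv : ns v = 1) : prj v ∈ CP N := ⟨v, hv, rfl⟩

/-- The gauge: the unit number with `uv (prj v) = conj (gau v) • v`. -/
noncomputable def gau (v : Fin N → ℂ) : ℂ :=
  open Classical in if h : ns v = 1 then conj (ip v (uv ⟨prj v, prj_mem h⟩)) else 1

theorem uv_eq {v : Fin N → ℂ} (hv : ns v = 1) :
    uv ⟨prj v, prj_mem hv⟩ = conj (gau v) • v := by
  have h1 : prj (uv ⟨prj v, prj_mem hv⟩) = prj v := prj_uv ⟨prj v, prj_mem hv⟩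
  rw [gau, dif_pos hv, Complex.conj_conj]
  exact eq_smul_of_prj_eq (ns_uv _) h1

theorem norm_gau (v : Fin N → ℂ) : ‖gau v‖ = 1 := by
  by_cases hv : ns v = 1
  · have h1 : prj (uv ⟨prj v, prj_mem hv⟩) = prj v := prj_uv ⟨prj v, prj_mem hv⟩
    rw [gau, dif_pos hv, RCLike.norm_conj]
    exact norm_ip_of_prj_eq (ns_uv _) hv h1
  · rw [gau, dif_neg hv, norm_one]

/-- The kernel in terms of unit vectors, up to a gauge. -/
theorem kap_prj {v w : Fin N → ℂ} (hv : ns v = 1) (hw : ns w = 1) (h : ip v w ≠ 0) :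
    kap ⟨prj v, prj_mem hv⟩ ⟨prj w, prj_mem hw⟩ = gau v * phs (ip v w) * conj (gau w) := by
  have h1 : ip (uv ⟨prj v, prj_mem hv⟩) (uv ⟨prj w, prj_mem hw⟩) =
      (gau v * conj (gau w)) * ip v w := by
    rw [uv_eq hv, uv_eq hw, ip_smul_left, ip_smul_right, Complex.conj_conj]
    ring
  have h2 : ‖gau v * conj (gau w)‖ = 1 := by
    rw [norm_mul, RCLike.norm_conj, norm_gau, norm_gau, mul_one]
  rw [kap, h1, phs_unit_mul h2 h]
  ring

/-- The normalised vector. -/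
noncomputable def nrm (v : Fin N → ℂ) : Fin N → ℂ := (((√(ns v))⁻¹ : ℝ) : ℂ) • v

theorem ns_nrm {v : Fin N → ℂ} (hv : 0 < ns v) : ns (nrm v) = 1 := by
  rw [nrm, ns_smul, Complex.norm_real, Real.norm_of_nonneg (by positivity), inv_pow,
    Real.sq_sqrt hv.le, inv_mul_cancel₀ hv.ne']

theorem prj_nrm {v : Fin N → ℂ} (hv : 0 < ns v) : prj (nrm v) = npr v := by
  have h1 : (((√(ns v))⁻¹ : ℝ) : ℂ) ≠ 0 := by
    have := Real.sqrt_pos.2 hv
    exact_mod_cast (inv_pos.2 this).ne'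
  rw [← npr_of_ns (ns_nrm hv), nrm, npr_smul h1]

/-- The kernel in terms of arbitrary nonzero vectors, up to a gauge. -/
theorem kap_npr {v w : Fin N → ℂ} (hv : 0 < ns v) (hw : 0 < ns w) (h : ip v w ≠ 0) :
    kap ⟨npr v, npr_mem hv⟩ ⟨npr w, npr_mem hw⟩ =
      gau (nrm v) * phs (ip v w) * conj (gau (nrm w)) := by
  have h0 : 0 < (√(ns v))⁻¹ * (√(ns w))⁻¹ :=
    mul_pos (inv_pos.2 (Real.sqrt_pos.2 hv)) (inv_pos.2 (Real.sqrt_pos.2 hw))
  have h1 : ip (nrm v) (nrm w) = (((√(ns v))⁻¹ * (√(ns w))⁻¹ : ℝ) : ℂ) * ip v w := by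
    rw [nrm, nrm, ip_smul_left, ip_smul_right, Complex.conj_ofReal]
    push_cast
    ring
  have h2 : ip (nrm v) (nrm w) ≠ 0 := by
    rw [h1]
    exact mul_ne_zero (by exact_mod_cast h0.ne') h
  have e1 : (⟨npr v, npr_mem hv⟩ : CP N) = ⟨prj (nrm v), prj_mem (ns_nrm hv)⟩ :=
    Subtype.ext (prj_nrm hv).symm
  have e2 : (⟨npr w, npr_mem hw⟩ : CP N) = ⟨prj (nrm w), prj_mem (ns_nrm hw)⟩ :=
    Subtype.ext (prj_nrm hw).symm
  rw [e1, e2, kap_prj (ns_nrm hv) (ns_nrm hw) h2, h1, phs_real_mul h0 h]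

end Vale.Agent.P216.Ker923
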